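import Crest.Agent.X212.Ds83.Rw
import Crest.Agent.X212.Lab56.Cls

/-!
# Row 212, BR-DS (helper83): the inside of the wall `rA x y` over a constant rod is `S¹ × D³`
-/

set_option autoImplicit false
set_option linter.unusedSectionVars false
noncomputable section
open Set Function Metric Matrix Filter
open scoped ContDiff Manifold

namespace Crest.Agent.X212.Ds83
open An M G75 Wd38 Nm96 Cyl58 Br55 Gl9 Sid48 Line51
open Rod53 hiding Uni X

variable {Γ : Nm} {κ lam : Type} [Fintype κ] [Fintype lam] [DecidableEq lam]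

/-- a trivial line over a subset of `S¹ × ℝ³` is a determinant -/
theorem ref_of {X : Mf 4} (Ξ : PartialDiffeomorph ((𝓡 1).prod 𝓘(ℝ, E3)) X.I (Circle × E3) X.M ∞) {U : Set X.M}
    (hU : IsOpen U) (h : U ⊆ Ξ.target) {p : X.M → Matrix lam lam ℂ} (hp : (⟨p, 0⟩ : Ln _ _ lam).On X.I U) {s}
    (hs : Uni X.I (fun _ => (1 : Matrix Unit Unit ℂ)) p s U) : Rf65.Ref X.I p U 0 := by
  have l : ∀ w ∈ hypT, IsLocalDiffeomorphAt IR IV ∞ hypI w := fun w k =>
    Glue52.ld_of_inverse (g := hyp) (t := {z | z.1 ≠ 0}) isOpen_hypT (isOpen_ne.preimage continuous_fst) k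
      (fun _ e => (cm_hypI e).contMDiffWithinAt) (fun _ e => (cm_hyp e).contMDiffWithinAt)
      (fun _ e => hypI_ne e) (fun _ e => hyp_mem e) (fun _ e => hyp_hypI e) fun _ e => hypI_hyp e
  have d := (Lab56.on_flat (E := ℂ × ℂ) (by simp)).pull (I' := X.I) (W := U)
    (f := hypI ∘ (Prod.map id Real.exp ∘ rc 0) ∘ Ξ.symm) (fun z k => ((ld_pd Ξ.symm (h k)).comp _ _
      (((IsOE.id.prodMap isOE_exp).comp (isOE_rc 0)).loc _)).comp _ _ (l _ (.inr (Real.exp_pos _)))) (mapsTo_univ _ _)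
  refine ⟨_, _, _, inferInstance, _, _, _, d, ?_⟩
  rcases U.eq_empty_or_nonempty with rfl | ⟨z, hz⟩
  · exact ⟨0, fun _ k => k.elim, fun _ k => k.elim⟩
  obtain ⟨e, he⟩ := exists_unit (d.det.prj z hz) (d.det.tr z hz)
  rw [smul_zero, sub_zero]
  exact Uni.ex_F (L := ⟨p, 0⟩) (L' := ⟨_, 0⟩) hU (hs.symm.trans ⟨fun _ _ => Pj41.MSm.const e, fun _ _ => he⟩) hp
    ⟨d.det.sm, d.det.prj, d.det.tr, fun _ _ => Dr59.cAt_zero, Dr59.Dg.zero⟩

section rod
variable {C : Cx Γ} {w : Shp Γ} {hw : w.OK} {X : TP V4} (R : Rz C hw X) {x y : ℤ} {Λ : NmL Γ} {n : Wd38.Wt}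
  (o : (Bs.rA x y).OK w)

/-- the chart of the inside -/
def Xi : PartialDiffeomorph ((𝓡 1).prod 𝓘(ℝ, E3)) X.mf.I (Circle × E3) X.mf.M ∞ :=
  ((isOE_rc (cc x y)).pd.trans ((C.T (w.kn x)).rod (w.v x y) (uni_pz (o.1.prl hw)))).trans (R.B o.1).φ

variable (hc : ∀ j, x < j → j ≤ y → w.s j = .rod (w.s x).r)
include hw o hc

theorem bz_c : w.bz x y = fun _ => (w.s x).r.2 := (o.1.bz_eq hw).trans <| funext fun j => by
  unfold Shp.bw
  split_ifs with k
  · rfl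
  · rw [hc _ (lt_min (not_le.1 k) o.1.lt) (min_le_right _ _)]; rfl

theorem v_c (t : ℝ) : w.v x y t = (w.s x).r.2 := by simp [Shp.v, bz_c (hw := hw) o hc, wd, PM.refl]

theorem jr_c (t : ℝ) : t ∈ Jr (w.v x y) (w.s x).r.2 := funext (v_c (hw := hw) o hc) ▸ Fl.Jr_const _ t

theorem nl_c (hn : n.OK w Λ) {j : ℤ} (h1 : x < j) (h2 : j ≤ y) : n.nl j = n.nr x := by
  have := o.1.lo; have := o.1.hi
  induction j, h1 using Int.leInduction with
  | base => simpa using (hn.eq (x + 1) (by omega) (by omega) (by simp [Shp.lf, Shp.rt, hc _ (lt_add_one x) h2, Sl.l])).symm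
  | succ j k ih =>
    have e := hc j k (by omega)
    simpa [← hn.rod j _ (by omega) (by omega) e, ih (by omega)] using
      (hn.eq (j + 1) (by omega) (by omega) (by simp [Shp.lf, Shp.rt, e, hc (j + 1) (by omega) h2, Sl.l, Sl.r])).symm

theorem okn (hn : n.OK w Λ) : (Bs.rA x y).OKn w n := by
  refine ⟨fun _ => nl_c (hw := hw) o hc hn o.1.lt le_rfl, fun e => ?_⟩
  obtain ⟨β, u⟩ := o.1.prl hw
  rw [hc y o.1.lt le_rfl, Sl.l, eq_neg_iff_add_eq_zero, ← two_smul ℤ, smul_eq_zero_iff_right two_ne_zero] at e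
  simp [e, Rod53.Uni, Rod53.dt] at u

theorem wz_c (hn : n.OK w Λ) (t : ℝ) : wz w n x y t = n.nr x := by
  simp only [wz, bz_c (hw := hw) o hc, wm, PM.refl, not_true, and_false, if_false, Wt.bn]
  split_ifs with k
  exacts [rfl, nl_c (hw := hw) o hc hn (lt_min (not_le.1 k) o.1.lt) (min_le_right _ _)]

theorem Xi_src : univ ×ˢ ball 0 (((y : ℝ) - x) / 2 + 1 / 4) ⊆ (Xi R o).source := fun p k =>
  have u : rc (cc x y) p ∈ Ur _ _ := .inr (jr_c (hw := hw) o hc _)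
  ⟨⟨trivial, u⟩, (R.B o.1).mem_src (mem_II_of_le (((C.T _).abs_time_le _ _).trans_eq ((C.T _).rr_rc _ u))
    (mem_ball_zero_iff.1 k.2))⟩

theorem Xi_img {r : ℝ} (h : r ≤ ((y : ℝ) - x) / 2 + 1 / 4) : R.D x y (Iio r) = Xi R o '' (univ ×ˢ ball 0 r) := by
  rw [R.D_eq o.1 fun _ k => k.trans_le h]
  have u : ∀ p, rc (cc x y) p ∈ Ur _ _ := fun p => .inr (jr_c (hw := hw) o hc _)
  refine Subset.antisymm ?_ ?_
  · rintro _ ⟨p, k, rfl⟩
    obtain ⟨q, -, rfl⟩ := (C.T _).mem_rod (uni_pz (o.1.prl hw)) k.1 (.inr (jr_c (hw := hw) o hc _))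
    obtain ⟨q, rfl⟩ := rc_surj (cc x y) q
    exact ⟨q, ⟨trivial, mem_ball_zero_iff.2 (((C.T _).rr_rc _ (u q)).symm.trans_lt k.2)⟩, rfl⟩
  · rintro _ ⟨q, k, rfl⟩
    exact ⟨_, ⟨(C.T _).rod_mem_tor _ (u q), ((C.T _).rr_rc _ (u q)).trans_lt (mem_ball_zero_iff.1 k.2)⟩, rfl⟩

/-- the marking extends over the inside -/
theorem mk_ext {L : LCx C Λ} (W : WL L R n lam) {m} (M : Mk0 W (b := .rA x y) o m) :
    ∃ s, Uni X.mf.I (fun _ => (1 : Matrix Unit Unit ℂ)) W.p s (R.D x y (Iio (((y : ℝ) - x) / 2 + 1 / 4))) ∧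
      ∀ q, m q * s ((R.nk (.rA x y) o).j q) = e0 := by
  have hu := uni_pz (o.1.prl hw)
  have A := o.1.arc hw (b := .rA x y) rfl (PM.refl _) o.2
  have s : (C.T _).disc _ (cc x y) (Iio (((y : ℝ) - x) / 2 + 1 / 4)) ⊆ (C.tm : C.XR w x y → ℝ) ⁻¹' II x y :=
    fun _ k => C.tm_disc k fun _ => id
  obtain ⟨S, h1, h2⟩ := ((W.tl o.1).mono s).exists_fr ((C.T _).isOpen_disc isOpen_Iio)
    (tl_chi (η := dual _ (pz (w.s x).r.2) (n.nr x) 0) (fun _ k => k.1) fun _ _ _ => Eventually.of_forall fun t => by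
      rw [v_c (hw := hw) o hc, wz_c (hw := hw) o hc W.ok, dual_left hu])
  have j : ∀ q, (C.T (w.kn x)).rb _ hu (cc x y) (Bs.rA x y).ρ q ∈ (C.T _).disc _ (cc x y) (Iio (((y : ℝ) - x) / 2 + 1 / 4)) :=
    fun q => (((C.T _).rA hu A (Bs.ρ_mono _)).j_mem).2 ((Bs.rA x y).ρ_mem _).2
  refine ⟨_, (Uni.of_chart (k := (R.B o.1).φ) (p := fun _ => 1) (q := W.p) h1).mono ?_, fun q => ?_⟩
  · rintro _ ⟨_, p, a, b, rfl⟩
    exact (mem_imT _ a).2 b
  change m q * S ((R.B o.1).symm (R.B o.1 ((C.T _).rb _ hu (cc x y) (Bs.rA x y).ρ q))) = _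
  rw [(R.B o.1).symm_apply (s (j q))]
  have e : L.sec w n (.rA x y) = secR e0 (n.nr x) := by
    change secR2 (o2 w n (.rA x y)).1 (o2 w n (.rA x y)).2 = _
    rw [o2_rA hw o (okn (hw := hw) o hc W.ok)]
    exact (rs_secR2 _ _).eq rfl
  rw [Mk0, e] at M
  refine ((h1.comp ⟨fun q _ => ((C.T _).isOE_rb hu A).contMDiff q, fun q _ => j q⟩).trans M.toUni).ext_sec isOpen_univ
    (fun q _ => (ok_secR he0 (n.nr x)).dn' q) (u' := fun _ => e0)
    ⟨fun _ _ => Pj41.MSm.const _, fun _ _ => Sec.piso_unit he0⟩ (fun q _ k => ⟨_, piso_sc (chi _ _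
      (dual (w.s x).r.2 (pz (w.s x).r.2) (n.nr x) 0)) ((C.T (w.kn x)).rb (w.v x y) hu (cc x y) (Bs.rA x y).ρ q), ?_⟩)
    (mem_univ q)
  have k' := (pre_rb (T := C.T (w.kn x)) hu A).ge k
  refine ((Matrix.mul_assoc _ _ _).trans (congrArg (m q * ·) (h2 _ (j q) k'))).trans ((M.eq q trivial k).trans
    (congrArg (e0 * ·) (congrArg (fun c : Circle => of fun _ _ => (c : ℂ)) ?_)))
  revert k'
  generalize q = q
  change (Circle × S2) × ℝ at q
  intro k'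
  rw [Tb.rb, chi_rod hu ((rod_mem_off hu (A.mem_Ur q)).1 k'), dual_left hu, dual_right hu, zpow_zero, mul_one, rc,
    L3_smul, dir_pos_mul (A.pos q.2)]

end rod

variable {C : Cx Γ} {G : Tab C.kd κ} {P : Pm Γ} {L : LP C G P lam}

/-- **BR-DS** -/
theorem ds (hG : RR (G.g .rr).e) (hL : NatL L) : DsStmt L Rf65.DS := by
  rintro D h μ i ⟨r, hr⟩ x y (rfl : r = _) hc f hs -
  have o := (h.ad _ hr).1.1
  have k := okn (hw := h.ok.w) o hc (h.lok _ i.2).ok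
  have lt := cast_lt o.1.lt
  have e : ((L.scn h μ).M.sys.w ⟨_, hr⟩).sd false = Xi (C.rz h.ok.w) o '' (univ ×ˢ ball 0 ((Bs.rA x y).ρ 0)) :=
    (bn_sd _ o false).trans ((Bs.rA x y).ρ_zero ▸ Xi_img _ o hc (le_add_of_nonneg_right (by norm_num)))
  obtain ⟨V, -, hV⟩ := id hL
  obtain ⟨m, M, em⟩ := (hV h.h0 (h.l0 i) μ).m (h.uw ⟨_, hr⟩)
  obtain ⟨s, h1, h2⟩ := mk_ext _ o hc _ M
  rw [← (hV h.h0 (h.l0 i) μ).p] at h1
  replace h1 : Uni (L.scn h μ).X.I (fun _ => (1 : Matrix Unit Unit ℂ)) ((L.scn h μ).N i).p s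
      (hf (L.scn h μ).M ⟨_, hr⟩ false) := h1.mono (by
    refine Subset.trans (union_subset_union (bn_sd _ o false).le (bn_band _ o).le) (sd_false_union _ _).le)
  refine ⟨_, _, Xi _ o, (Bs.rA x y).ρ, _, rw h μ i hr hG hL k f, fun σ ⟨p, p1, _, p2⟩ q a ha => ?_, fun l hl => ?_,
    Up.of_ld isOpen_univ (fun t _ => (isOE_sig (Bs.r0_lt _)).loc t) ((Bs.ρ_mono _).monotone.monotoneOn _),
    fun t => ⟨lt_of_le_of_lt (by rw [Bs.r0]; linarith) (Bs.ρ_mem _ t).1, (Bs.ρ_mem _ t).2⟩, Xi_src _ o hc,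
    fun _ => rfl, e, ⟨s, V * e0, h1, fun q _ => ?_⟩, ref_of (Xi (C.rz h.ok.w) o) (Wall.op_sd _ _) ?_
      (((L.scn h μ).N i).ok.mono (subset_univ _)) (h1.mono subset_union_left)⟩
  · exact (hs p p1 (p2 _ q) _ (p2 a ha)).imp Subtype.ext fun c => (Rz.range_bn _ _ _).le.trans
      ((out_sd _ (h.ad _ a.2).1.1 c.1 c.2 o).trans (bn_sd _ o true).ge)
  · obtain ⟨⟨b, t⟩, l⟩ := l
    obtain ⟨rfl, c⟩ : t = [] ∧ _ := (Finset.mem_filter.1 hl).2
    have f := f _ (Finset.mem_union_right _ c)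
    have g := h.nin _ hr _ c
    obtain ⟨z, rfl, -, -, u⟩ := h.ok.ls _ c
    have b := (h.ad _ l).1.1
    refine (union_subset_union (bn_sd _ b false).le (bn_band _ b).le).trans ((sd_false_union _ _).le.trans
      (Subset.trans (fun p q => ?_) (bn_sd _ o true).ge))
    have t := Rz.D_II _ q
    rcases f with f | f | ⟨-, f, f', -⟩ | ⟨-, f, f', -⟩
    · exact sd_hi _ (show (y : ℝ) + _ < _ by linarith [cast_lt (show y < z from f), t.1])
    · simpa [Bs.side, Bs.lo] using sd_lo _ (a := .rA x y) (z := p)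
        (show _ < (x : ℝ) + _ by linarith [cast_lt (show z + 3 < x from f), t.2])
    · change x < z at f
      change z + 3 < y at f'
      have := (u z (by omega) (by omega)).symm.trans ((hc z f (by omega)).trans
        ((hc (z + 1) (by omega) (by omega)).symm.trans (u _ (by omega) (by omega))))
      simp [lrd] at this
    · change z < x at f
      change y < z + 3 at f'
      have := o.1.lt
      exact (g (by simp only [Bs.lo]; congr 1 <;> omega)).elim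
  · exact (congrArg (· * _) (congrFun em q)).trans ((Matrix.mul_assoc _ _ _).trans (congrArg (V * ·) (h2 q)))
  · rw [e]
    rintro _ ⟨p, c, rfl⟩
    exact (Xi _ o).map_source (Xi_src _ o hc ⟨trivial, ball_subset_ball (Bs.ρ_mem _ 0).2.le c.2⟩)

end Crest.Agent.X212.Ds83
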