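import Crest.Agent.X212.Br55.Defs
import Crest.Agent.X212.Rf65.Rs
import Crest.Agent.X212.Gl9.Tab
import Crest.Agent.X212.Line51.Wd3

/-!
# Row 212, BR-DS (helper83), part Rw: the wall `rA x y` of a scene of words
-/

set_option autoImplicit false
set_option linter.unusedSectionVars false
noncomputable section
open Set Function Metric Matrix
open scoped ContDiff Manifold InnerProductSpace

namespace Crest.Agent.X212.Ds83
open An M G75 Wd38 Nm96 Cyl58 Br55 Gl9 Sid48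
open Rod53 (E3 mR isOE_shell)
open Line51 (IsN K3)

variable {Γ : Nm} {κ lam : Type} [Fintype κ] [Fintype lam] [DecidableEq lam]

/-- the first factor of `S¹ × S²` -/
def thR (kd : Γ.ι → Ext52.KD) : (mY kd .rr).M → Circle := fun y : Circle × S2 => y.1

/-- the second factor of `S¹ × S²` -/
def piR (kd : Γ.ι → Ext52.KD) : (mY kd .rr).M → E3 := fun y : Circle × S2 => y.2

theorem pr_R {kd : Γ.ι → Ext52.KD} (F : An.Fr (mY kd .rr).I (mY kd .rr).M κ) (h : RR F.e) :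
    Rf65.PR F (thR kd) (piR kd) := by
  have key : ∀ y : ℝ × S2, ∃ X : κ → VR, (∀ v w, ∑ k, ⟪v, X k⟫_ℝ * ⟪w, X k⟫_ℝ =
      ⟪v, w⟫_ℝ - ⟪v, pR (tR y)⟫_ℝ * ⟪w, pR (tR y)⟫_ℝ) ∧
      (∀ k, F.D k (fun y => (thR kd y : ℂ)) (cR y) = (X k).fst • (Complex.I * (cR y).1)) ∧
      ∀ k, F.D k (piR kd) (cR y) = (X k).snd := fun y => by
    have d := (sm_tR y).mdifferentiableAt (by simp)
    have c := (ld_cR y).contMDiffAt.mdifferentiableAt (by simp)
    refine ⟨_, h y, fun k => ?_, fun k => ?_⟩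
    · refine (Met55.dv_rel c (Met55.pbv_rel (ld_cR y) (F.e k)) (((Line51.contMDiff_coe _).comp _
        contMDiffAt_fst).mdifferentiableAt (by simp))).symm.trans ?_
      have g := ((hasDerivAt_id y.1).ofReal_comp.mul_const Complex.I).cexp.hasFDerivAt.comp (tR y)
        (WithLp.fstL 2 ℝ ℝ E3).hasFDerivAt
      refine (Sob92.dv_comp d g).trans ?_
      simp [cR, mul_comm]
    · exact (Met55.dv_rel c (Met55.pbv_rel (ld_cR y) (F.e k)) (((contMDiff_coe_sphere (n := 2) (m := 1) _).comp _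
        contMDiffAt_snd).mdifferentiableAt one_ne_zero)).symm.trans (Sob92.dv_clm (WithLp.sndL 2 ℝ ℝ E3) d)
  refine ⟨fun y => norm_eq_of_mem_sphere y.2, (IsOE.id.prodMap (isOE_shell isOE_exp Real.exp_pos)).comp isOE_assoc,
    fun z v hv => ⟨(z, ⟨v, by simpa using hv⟩), rfl, rfl⟩, fun y v w => ?_, fun y v w => ?_, fun y v w => ?_⟩ <;>
    obtain ⟨y, rfl⟩ := cR_surj y <;> obtain ⟨X, h1, h2, h3⟩ := key y
  · have := h1 (WithLp.toLp 2 (⟪v, Complex.I * (cR y).1⟫_ℝ, 0)) (WithLp.toLp 2 (⟪w, Complex.I * (cR y).1⟫_ℝ, 0))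
    have n := Circle.normSq_coe (cR y).1
    simp only [h2, inner_smul_right]
    simp [pR, tR, mul_comm, show thR kd (cR y) = (cR y).1 from rfl, Complex.normSq_apply] at this n ⊢
    linear_combination this + (v.re * w.re + v.im * w.im) * n
  · have := h1 (WithLp.toLp 2 (0, v)) (WithLp.toLp 2 (0, w))
    simp only [h3]
    simpa [pR, tR, show piR kd (cR y) = y.2 from rfl] using this
  · have := h1 (WithLp.toLp 2 (⟪v, Complex.I * (cR y).1⟫_ℝ, 0)) (WithLp.toLp 2 (0, w))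
    simp only [h2, h3, inner_smul_right]
    simpa [pR, tR, mul_comm] using this

section geo
variable {C : Cx Γ} {w : Shp Γ} {hw : w.OK} {X : TP V4} (R : Rz C hw X) {x y : ℤ} {a : Wl}

theorem bn_sd {b : Bs} (h : b.OK w) (s : Bool) : (R.bn b h).wall.sd s = sd R b s :=
  Set.ext fun _ => (R.bn_sd b h).trans (by rw [nk_S])

theorem bn_band {b : Bs} (h : b.OK w) : (R.bn b h).wall.band = R.bd b := (R.spec_nk b h).b

theorem fr_far {a b : Bs} (ha : a.OK w) (hb : b.OK w) (f : a.Far b) : Sid48.Fr a b.lo :=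
  (far_fr f (OK_hi ha).1 (OK_hi hb).1 (fun e => (OK_rg hb e).lt) fun e => (OK_rg ha e).lt).1

theorem bd_out {a b : Bs} (ha : a.OK w) (hb : b.OK w) (f : a.Far b) : R.bd b ⊆ sd R a (sw a b) := by
  obtain ⟨z, k1, k2⟩ := exists_lo R hb
  rw [← bn_sd R ha, ← bn_band R hb] at *
  exact Wall.band_subset (bn_band R ha ▸ bn_band R hb ▸ R.bd_far f) k1 (bn_sd R ha _ ▸ k2 a ha (fr_far ha hb f))

/-- walls outside the arc -/
theorem out_sd (h : a.b.OK w) (o : a.Out x y) (f : a.b.Far (.rA x y)) (hr : (Bs.rA x y).OK w) :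
    R.bW a ⊆ sd R (.rA x y) true := by
  rintro _ ⟨z, hz, rfl⟩
  refine (R.tws_mem fun t k => .inl fun p q => ?_).2 ?_
  · have := R.K_time q
    rcases o.2.2 t k with e | e
    · simpa [Bs.side, Bs.lo] using sd_lo R (a := .rA x y) (z := p) (show _ < (x : ℝ) + _ by linarith [cast_lt e, this.2])
    · exact sd_hi R (show (y : ℝ) + _ < _ by linarith [cast_lt e, this.1])
  · have k : x ≠ a.b.lo := (fr_far hr h (far_symm f)).1
    have := o.1
    convert bd_out R hr h (far_symm f) hz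
    simp only [sw, Bs.side]
    simp
    omega

end geo

variable {C : Cx Γ} {G : Tab C.kd κ} {P : Pm Γ} (L : LP C G P lam)

/-- the marked lines are the canonical ones -/
def NatL : Prop := ∃ V : Matrix lam K3 ℂ, Vᴴ * V = 1 ∧
  ∀ {w ls} (h : (f0 w ls).OK P) {n} (hn : (f0 w ls).LOK P n) μ, IsN V (L.W h hn μ) (L.N h hn μ)

variable {L} {D : Dt Γ} (h : D.OK P) (μ : ℤ × ℤ) (i : D.L) {x y : ℤ} (hr : ((Bs.rA x y : Bs) : Wl) ∈ D.A)

theorem rw (hG : RR (G.g .rr).e) (hL : NatL L) (k : (Bs.rA x y).OKn D.F.w i.1)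
    (f : ∀ l ∈ D.F.fz ∪ D.F.ls, (Bs.rA x y).Far l) :
    Rf65.RW (L.scn h μ) i ⟨_, hr⟩ (thR C.kd) (piR C.kd) := by
  have o := (h.ad _ hr).1.1
  refine ⟨(fun e => nomatch e), fun e => ?_, fun l e => ?_, fun a e => ?_, pr_R _ hG, ?_⟩
  · obtain ⟨_, e, -⟩ := h.ok.ls _ (Finset.mem_filter.1 e).2.2
    cases e
  · obtain ⟨⟨b, t⟩, l⟩ := l
    obtain ⟨rfl, e⟩ : t = [] ∧ _ := (Finset.mem_filter.1 e).2
    exact Rz.mark_cmp _ _ _ _ (.bs (f _ (Finset.mem_union_right _ e)))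
  · obtain ⟨⟨b, t⟩, l⟩ := a
    obtain ⟨rfl, e⟩ : t = [] ∧ _ := (Finset.mem_filter.1 e).2
    have f := far_symm (f _ (Finset.mem_union_left _ e))
    obtain ⟨-, z, rfl⟩ := h.ok.fz _ e
    refine (Rz.range_bn _ _ _).le.trans ((out_sd _ (h.ad _ l).1.1 ?_ f o).trans (bn_sd _ o true).ge)
    have := o.1.lt
    simp only [Bs.Far, Bs.hi, Bs.lo, Bs.arc, Wl.Out] at f ⊢
    simp at f ⊢
    omega
  · obtain ⟨V, -, hV⟩ := hL
    refine ⟨V * (Line51.e0 * Line51.e0ᴴ) * Vᴴ, ((hV h.h0 (h.l0 i) μ).LY (h.uw ⟨_, hr⟩)).trans ?_⟩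
    change (L.L.LT .rr (Line51.o2 _ (cp i.1 μ) (.rA x y))).cj V = _
    rw [Line51.o2_rA (n := cp i.1 μ) h.ok.w o k, Line51.LT_rr]
    rfl

end Crest.Agent.X212.Ds83
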